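import Vale.Agent.P366K2.Pl
import Vale.Agent.P366K3.Cf
import Vale.Agent.P366K.Cv

/-!
# P366TR: test variations near the boundary
-/

set_option linter.all false

open MeasureTheory Filter Topology Set
open scoped ContDiff
open Vale.Agent.P366 Vale.Agent.P366M Vale.Agent.P366K Vale.Agent.P366K3
open Vale.Agent.P366MM (sq_smul)

noncomputable section

namespace Vale.Agent.P366TR

/-! ### one variable -/

/-- the primitive which vanishes at `3` -/
def pm (b : ℝ → ℝ) (s : ℝ) : ℝ := ∫ x in (3 : ℝ)..s, b x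

theorem pm_der {b : ℝ → ℝ} (hb : Continuous b) (s : ℝ) : HasDerivAt (pm b) (b s) s :=
  (hb.integral_hasStrictDerivAt 3 s).hasDerivAt

theorem pm_sm {b : ℝ → ℝ} (hb : ContDiff ℝ ∞ b) : ContDiff ℝ ∞ (pm b) :=
  contDiff_infty_iff_deriv.2 ⟨fun s => (pm_der hb.continuous s).differentiableAt, by
    rwa [show deriv (pm b) = b from funext fun s => (pm_der hb.continuous s).deriv]⟩

theorem pm_zero {b : ℝ → ℝ} (h : ∀ s, 3 ≤ s → b s = 0) (s : ℝ) (hs : 3 ≤ s) : pm b s = 0 := by
  rw [pm, intervalIntegral.integral_congr (g := fun _ => 0) fun x hx =>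
    h x (by rw [uIcc_of_le hs] at hx; exact hx.1)]
  simp

/-- the cut-off -/
def a0 (s : ℝ) : ℝ := Real.smoothTransition (3 - s)

theorem sm0 : ContDiff ℝ ∞ a0 := Real.smoothTransition.contDiff.comp (contDiff_const.sub contDiff_id)

theorem z0 (s : ℝ) (h : 3 ≤ s) : a0 s = 0 := Real.smoothTransition.zero_of_nonpos (by linarith)

theorem one0 {s : ℝ} (h : s ≤ 2) : a0 s = 1 := Real.smoothTransition.one_of_one_le (by linarith)

theorem der_sc {b : ℝ → ℝ} (hb : Continuous b) (t s : ℝ) :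
    HasDerivAt (fun r => pm b (r / t)) (t⁻¹ * b (s / t)) s := by
  have := (pm_der hb (s / t)).comp s ((hasDerivAt_id s).div_const t)
  rwa [one_div, mul_comm] at this

/-- concentration on the zero set of `g` -/
theorem dc {W : Type} [MeasurableSpace W] (μ : Measure W) [IsFiniteMeasure μ] {g Q : W → ℝ}
    (hg : Measurable g) (g0 : ∀ w, 0 ≤ g w) (hQ : Measurable Q) {δ : ℝ} (δ0 : 0 < δ)
    (b : ∃ C, ∀ w, g w ≤ δ → |Q w| ≤ C) {p : ℝ → ℝ} (hp : Continuous p)
    (p3 : ∀ s, 3 ≤ s → p s = 0) :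
    IntegrableOn (fun w => p 0 * Q w) {w | g w = 0} μ ∧
    (∀ᶠ t in 𝓝[>] 0, Integrable (fun w => p (g w / t) * Q w) μ) ∧
    Tendsto (fun t => ∫ w, p (g w / t) * Q w ∂μ) (𝓝[>] 0)
      (𝓝 (∫ w in {w | g w = 0}, p 0 * Q w ∂μ)) := by
  obtain ⟨C, b⟩ := b
  obtain ⟨A, a⟩ := (isCompact_Icc (a := (0 : ℝ)) (b := 3)).exists_bound_of_continuousOn
    hp.continuousOn
  have ms : MeasurableSet {w | g w = 0} := hg (measurableSet_singleton 0)
  have m : ∀ t, AEStronglyMeasurable (fun w => p (g w / t) * Q w) μ := fun t =>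
    ((hp.measurable.comp (hg.div_const t)).mul hQ).aestronglyMeasurable
  have k : ∀ᶠ t in 𝓝[>] 0, ∀ᵐ w ∂μ, ‖p (g w / t) * Q w‖ ≤ |A| * |C| := by
    filter_upwards [Ioc_mem_nhdsGT (show 0 < δ / 3 by positivity)] with t ht
    refine .of_forall fun w => ?_
    rcases le_total 3 (g w / t) with h | h
    · rw [p3 _ h, zero_mul, norm_zero]
      positivity
    · rw [norm_mul]
      exact mul_le_mul ((a _ ⟨div_nonneg (g0 w) ht.1.le, h⟩).trans (le_abs_self A))
        ((b w (by linarith [(div_le_iff₀ ht.1).1 h, ht.2])).trans (le_abs_self C)) (norm_nonneg _)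
        (abs_nonneg A)
  refine ⟨.of_bound (measure_lt_top _ _) (hQ.const_mul _).aestronglyMeasurable (|p 0| * C)
    ((ae_restrict_mem ms).mono fun w hw => ?_), k.mono fun t h => .of_bound (m t) _ h, ?_⟩
  · rw [norm_mul]
    exact mul_le_mul_of_nonneg_left (b w (hw.trans_le δ0.le)) (abs_nonneg _)
  rw [← integral_indicator ms]
  refine tendsto_integral_filter_of_dominated_convergence _ (.of_forall m) k (integrable_const _)
    (.of_forall fun w => ?_)
  by_cases h : g w = 0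
  · simp [h, indicator_of_mem (show w ∈ {w | g w = 0} from h)]
  · have h' := (g0 w).lt_of_ne' h
    rw [indicator_of_notMem (show w ∉ {w | g w = 0} from h)]
    refine tendsto_const_nhds.congr' ?_
    filter_upwards [Ioc_mem_nhdsGT (show 0 < g w / 3 by positivity)] with t ht
    rw [p3 _ ((le_div_iff₀ ht.1).2 (by linarith [ht.2])), zero_mul]

/-! ### variations of `K` by multiples of the metric -/

variable {n : ℕ} {M : Type} [Mfe n M] {D : Exterior n M} {u φ G γ : M → ℝ} {δ R : ℝ} {O : Set M}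
  {x : M}

theorem fam_zero (g : Fld n M) (t : ℝ) : fam g (fun _ _ _ => 0) t = g := by
  funext y i j
  simp [fam]

theorem tr_fam (φ : M → ℝ) (t : ℝ) (y : M) :
    tr D.g (fam D.K (fun y i j => φ y * D.g y i j) t) y = tr D.g D.K y + t * φ y * n := by
  have a : ∀ i, ∑ j, up D.g i j y * D.g y i j = 1 := fun i => by
    simpa only [D.met.sy y i, if_true] using D.met.up_mul i i y
  simp only [tr, fam, mul_add, Finset.sum_add_distrib, ← mul_assoc t, mul_left_comm _ (t * φ y),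
    ← Finset.mul_sum, a, Finset.sum_const, Finset.card_univ, Fintype.card_fin, nsmul_eq_mul, mul_one]
  ring

theorem ip_pos (h : ∃ i, pd i u x ≠ 0) : 0 < ip D.g u u x :=
  h.elim fun i h => D.met.up_pos x (ξ := fun i => pd i u x) fun e => h (congrFun e i)

theorem kv (hR : REP) (hφ : Smooth φ) (x : M) :
    dmu D.g D.K (fun _ _ _ => 0) (fun y i j => φ y * D.g y i j) x =
      φ x * dmu D.g D.K (fun _ _ _ => 0) D.g x ∧
    (∀ j, dmo D.g D.K (fun _ _ _ => 0) (fun y i j => φ y * D.g y i j) j x = (1 - n) * pd j φ x) ∧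
    ((∃ i, pd i D.F x ≠ 0) →
      dth D.g D.K D.F (fun _ _ _ => 0) (fun y i j => φ y * D.g y i j) x = (n - 1) * φ x) := by
  have d : ∀ a b : ℝ, deriv (fun t : ℝ => a + t * b) 0 = b := fun a b =>
    ((hasDerivAt_mul_const b).const_add a).deriv
  refine ⟨?_, fun j => ?_, fun h => ?_⟩
  · have sg : Sym D.g := ⟨D.met.sm, D.met.sy⟩
    have := ((hR n M D.g D.K _ _ D.F D.met (symK D) sym_zero sg D.dom.1).2.2.2.2 _ _ (φ x) 0
      sym_zero sg x).1
    simp only [mul_zero, zero_mul, add_zero] at this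
    rw [← this]
    exact congrArg (deriv · 0) (funext fun t => mu_of_ev EventuallyEq.rfl rfl)
  · have e : ∀ t, mom D.g (fam D.K (fun y i j => φ y * D.g y i j) t) j x =
        mom D.g D.K j x + t * ((1 - n) * pd j φ x) := fun t => by
      have e1 : momT D.g (fam D.K (fun y i j => φ y * D.g y i j) t) =
          fun y i j => momT D.g D.K y i j + t * (1 - n) * φ y * D.g y i j := by
        funext y i j
        rw [momT, tr_fam, momT, fam]
        ring
      have s : Smooth fun y => t * (1 - n) * φ y := CD.mul cd_const hφ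
      rw [mom_eq_dvT, mom_eq_dvT, e1, ← mul_assoc, ← pd_const_mul]
      unfold dvT
      rw [rep_add, rep_smul _ fun y => t * (1 - n) * φ y,
        C.dvT_add _ (D.met.sm_momT D.smK _ (ch_mem x)) fun i j =>
          ContDiff.mul (s _ (ch_mem x)) (D.met.sm _ (ch_mem x) i j),
        C.dvT_fg (D.met.rep (ch_mem x)) (s.diff x)]
      rfl
    simp only [dmo, fam_zero, e, d, zero_mul, Finset.sum_const_zero, zero_div, sub_zero]
  · have a : P366MM.sq D.g x (fun i => nrm D.g D.F i x) = 1 := by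
      simp only [P366MM.nrm_eq]
      rw [sq_smul, P366MM.sq_gr D.met, inv_pow, D.met.gn_sq, inv_mul_cancel₀ (ip_pos h).ne']
    have e : ∀ t, thetaPlus D.g (fam D.K (fun y i j => φ y * D.g y i j) t) D.F x =
        thetaPlus D.g D.K D.F x + t * ((n - 1) * φ x) := fun t => by
      simp only [P366MM.sq, mul_assoc] at a
      simp only [thetaPlus, trS, tr_fam]
      simp only [fam, add_mul, Finset.sum_add_distrib, mul_assoc, ← Finset.mul_sum, a]
      ring
    simp only [dth, fam_zero, e, d]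

variable {m κ R1 R2 ε c l : ℝ} {P : Fin n → ℝ} {Z : Fin n → M → ℝ} {W : Type} [MeasurableSpace W]
  {π : W → M} {ν : W → Fin n → ℝ} {α β : Measure W} {η : Measure M}

/-- the identity for variations with compact support -/
theorem id0 (H : Mm D m P κ R1 R2 ε Z π ν α β η c l) {h k : Fld n M} (sh : Sym h) (sk : Sym k)
    (z : ∀ x : M, R ≤ ‖px x‖ → (h x = fun _ _ => 0) ∧ k x = fun _ _ => 0) :
    ∫ w, wt ε (π w) * lin D.g D.K h k (π w) (ν w) ∂α - ∫ x, dth D.g D.K D.F h k x ∂η +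
      ∫ w, ar D.g h (π w) (ν w) ∂β = 0 := by
  simpa [dm] using H.id _ _ _ _ _ (var_cpt sh sk z ε)

/-- the conformal identity -/
theorem id1 (hC : C.CONF) (hR : REP) (E : Eqc D m P κ) (H : Mm D m P κ R1 R2 ε Z π ν α β η c l)
    (hu : Smooth u) (z : ∀ x : M, R ≤ ‖px x‖ → u x = 0) :
    ∫ w, wt ε (π w) * (lap D.g u (π w) -
      ∑ j, (∑ a, D.K (π w) j a * gr D.g u a (π w)) * ν w j) ∂α +
      ∫ x, ∑ a, nrm D.g D.F a x * pd a u x ∂η = ∫ w, u (π w) ∂β := by
  have n1 : (0 : ℝ) < n - 1 := by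
    have : (3 : ℝ) ≤ n := by exact_mod_cast E.n3
    linarith
  have b := id0 H (sym_cH (D := D) hu) (sym_cK (D := D) hu) (R := R)
    fun x m => ⟨by funext i j; simp [cH, z x m], by funext i j; simp [cK, z x m]⟩
  rw [integral_congr_ae (g := fun w => -(n - 1 : ℝ) * (wt ε (π w) * (lap D.g u (π w) -
      ∑ j, (∑ a, D.K (π w) j a * gr D.g u a (π w)) * ν w j))) (H.act.mono fun w hw => by
      simp only [en] at hw
      simp only [lin, (cf hC hR hu _).1, (cf hC hR hu _).2.1, add_mul, Finset.sum_add_distrib,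
        mul_assoc (-2 * u (π w)), mul_assoc (n - 1 : ℝ), ← Finset.mul_sum]
      linear_combination (-2 * u (π w) * wt ε (π w)) * hw), integral_const_mul,
    integral_congr_ae (H.sη.mono fun x hx =>
      ((cf hC hR hu x).2.2 (D.dom.2.1 x hx)).trans (by rw [E.mar x hx, mul_zero, sub_zero])),
    integral_const_mul] at b
  simp only [cf_ar (H.unit _), integral_const_mul] at b
  exact mul_left_cancel₀ n1.ne' (by linarith)

/-- the identity for the variations of `K` by multiples of the metric -/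
theorem id2 (hR : REP) (E : Eqc D m P κ) (H : Mm D m P κ R1 R2 ε Z π ν α β η c l)
    (hφ : Smooth φ) (z : ∀ x : M, R ≤ ‖px x‖ → φ x = 0) :
    ∫ w, wt ε (π w) * (∑ j, pd j φ (π w) * ν w j -
      φ (π w) * (dmu D.g D.K (fun _ _ _ => 0) D.g (π w) / (n - 1))) ∂α + ∫ x, φ x ∂η = 0 := by
  have n1 : (0 : ℝ) < n - 1 := by
    have : (3 : ℝ) ≤ n := by exact_mod_cast E.n3
    linarith
  have b := id0 H sym_zero (Sym.smul ⟨D.met.sm, D.met.sy⟩ hφ) (R := R)
    fun x m => ⟨rfl, by funext i j; simp [z x m]⟩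
  rw [integral_congr_ae (g := fun w => -(n - 1 : ℝ) * (wt ε (π w) * (∑ j, pd j φ (π w) * ν w j -
      φ (π w) * (dmu D.g D.K (fun _ _ _ => 0) D.g (π w) / (n - 1))))) (.of_forall fun w => by
      simp only [lin, (kv hR hφ _).1, (kv hR hφ _).2.1, mul_assoc (1 - n : ℝ), ← Finset.mul_sum]
      field_simp
      ring), integral_const_mul,
    integral_congr_ae (H.sη.mono fun x hx => (kv hR hφ x).2.2 (D.dom.2.1 x hx)),
    integral_const_mul] at b
  simp only [ar, tr, mul_zero, zero_mul, Finset.sum_const_zero, sub_zero, zero_div, integral_zero,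
    add_zero] at b
  exact mul_left_cancel₀ n1.ne' (by linarith)

/-! ### a defining function which is large far out -/

structure Df (D : Exterior n M) (G γ : M → ℝ) (δ R : ℝ) (O : Set M) : Prop where
  sG : Smooth G
  sγ : Smooth γ
  δ0 : 0 < δ
  δ1 : δ ≤ 1
  op : IsOpen O
  eq : ∀ x ∈ O, G x = D.F x
  bd : ∀ x, D.F x = 0 → x ∈ O
  ob : ∀ x ∈ O, ‖px x‖ ≤ R
  nn : ∀ x, 0 ≤ D.F x → 0 ≤ G x
  far : ∀ x, R ≤ ‖px x‖ → 1 < G x
  sm : ∀ x, G x ^ 2 ≤ δ → x ∈ O ∧ δ ≤ ip D.g G G x ∧ γ x = gn D.g G x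

theorem exists_df (D : Exterior n M) : ∃ G γ δ R O, Df D G γ δ R O := by
  obtain ⟨R, hR⟩ := D.dom.2.2.2
  let G : M → ℝ := fun x => D.F x + Real.smoothTransition (‖px x‖ ^ 2 - (|R| + 1) ^ 2)
  have sG : Smooth G := CD.add D.dom.1
    (Real.smoothTransition.contDiff.compM (CD.sub contDiff_normSq cd_const))
  have op : IsOpen {x : M | ‖px x‖ ^ 2 < (|R| + 1) ^ 2} := isOpen_lt (cont_npx.pow 2) continuous_const
  have eq : ∀ x ∈ {x : M | ‖px x‖ ^ 2 < (|R| + 1) ^ 2}, G x = D.F x := fun x hx => by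
    simp only [G, Real.smoothTransition.zero_of_nonpos (sub_nonpos.2 (le_of_lt hx)), add_zero]
  have le : ∀ x, D.F x ≤ G x := fun x => le_add_of_nonneg_right (Real.smoothTransition.nonneg _)
  have bd : ∀ x : M, D.F x ≤ 0 → ‖px x‖ ^ 2 < (|R| + 1) ^ 2 := fun x hx =>
    pow_lt_pow_left₀ (by linarith [not_lt.1 fun h => (hR x h).not_ge hx, le_abs_self R])
      (norm_nonneg _) two_ne_zero
  have far : ∀ x : M, |R| + 2 ≤ ‖px x‖ → 1 < G x := fun x hx => by
    have := hR x (by linarith [le_abs_self R])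
    simp only [G]
    rw [Real.smoothTransition.one_of_one_le (by nlinarith [abs_nonneg R])]
    linarith
  obtain ⟨a, a0, ha⟩ := (isCompact_px M (|R| + 2)).exists_forall_le' (a := 0)
    (f := fun x => max (G x ^ 2) (min (ip D.g G G x) ((|R| + 1) ^ 2 - ‖px x‖ ^ 2)))
    ((sG.cont.pow 2).max ((D.met.sm_ip sG sG).cont.min
      (continuous_const.sub (cont_npx.pow 2)))).continuousOn fun x _ => by
      by_cases h : G x = 0
      · have o := bd x (h ▸ le x)
        have e : G =ᶠ[𝓝 x] D.F := eventually_of_mem (op.mem_nhds o) eq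
        exact lt_max_of_lt_right (lt_min (ip_congr e e ▸ ip_pos (D.dom.2.1 x (eq x o ▸ h)))
          (sub_pos.2 o))
      · exact lt_max_of_lt_left (by positivity)
  have k : ∀ x, G x ^ 2 ≤ min (a / 2) 1 →
      ‖px x‖ ^ 2 < (|R| + 1) ^ 2 ∧ min (a / 2) 1 ≤ ip D.g G G x := fun x hx => by
    have h1 := le_min_iff.1 hx
    have h2 := le_min_iff.1 ((le_max_iff.1 (ha x (le_of_not_ge fun h => by
      nlinarith [far x h]))).resolve_left (by linarith))
    exact ⟨by linarith, by linarith [min_le_left (a / 2) 1]⟩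
  have δ0 : 0 < min (a / 2) 1 := by positivity
  refine ⟨G, fun x => √(ip D.g G G x + Real.smoothTransition (G x ^ 2 - min (a / 2) 1)), _, |R| + 2,
    _, sG, CD.sqrt (CD.add (D.met.sm_ip sG sG) (Real.smoothTransition.contDiff.compM
      (CD.sub (CD.pow sG 2) cd_const))) fun x => ne_of_gt ?_, δ0, min_le_right _ _, op, eq,
    fun x h => bd x h.le, fun x h => (lt_of_pow_lt_pow_left₀ 2 (by positivity) h).le.trans
      (by linarith), fun x h => h.trans (le x), far, fun x h => ⟨(k x h).1, (k x h).2, ?_⟩⟩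
  · rcases le_or_gt (G x ^ 2) (min (a / 2) 1) with h | h
    · linarith [(k x h).2, Real.smoothTransition.nonneg (G x ^ 2 - min (a / 2) 1)]
    · linarith [D.met.ip_nonneg G x, Real.smoothTransition.pos_of_pos (sub_pos.2 h)]
  · simp only [Real.smoothTransition.zero_of_nonpos (sub_nonpos.2 h), add_zero, gn]

theorem Df.ev (f : Df D G γ δ R O) (h : x ∈ O) : G =ᶠ[𝓝 x] D.F :=
  eventually_of_mem (f.op.mem_nhds h) f.eq

theorem Df.key (f : Df D G γ δ R O) (h0 : 0 ≤ G x) (h : G x ≤ δ) {e : Fin n → ℝ}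
    (he : P366MM.sq D.g x e = 1) : 0 ≤ 1 - gp D.g (nrm D.g D.F) x e ∧ δ ≤ ip D.g G G x ∧
      ip D.g G G x - ∑ j, γ x * pd j G x * e j = ip D.g G G x * (1 - gp D.g (nrm D.g D.F) x e) := by
  obtain ⟨o, h1, h2⟩ := f.sm x (by nlinarith [f.δ1])
  have p : 0 < gn D.g G x := Real.sqrt_pos.2 (f.δ0.trans_le h1)
  have a : gp D.g (nrm D.g D.F) x e = (∑ j, pd j G x * e j) / gn D.g G x := by
    rw [gp, Finset.sum_comm, Finset.sum_div]
    refine Finset.sum_congr rfl fun j _ => ?_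
    rw [pd_congr (f.ev o), gn_congr (f.ev o), ← D.met.g_up_mul x j fun l => pd l D.F x,
      Finset.sum_mul, Finset.sum_div]
    refine Finset.sum_congr rfl fun i _ => ?_
    rw [P366MM.nrm_eq, D.met.sy x i, gr]
    ring
  refine ⟨?_, h1, ?_⟩
  · rw [a, sub_nonneg, div_le_one p]
    exact (le_abs_self _).trans (P366MM.cs D.met x _ _ he.le)
  · simp only [a, h2, mul_assoc, ← Finset.mul_sum, ← D.met.gn_sq]
    field_simp

/-- the integrand of the representation -/
def qq (ε : ℝ) (π : W → M) (ν : W → Fin n → ℝ) (f : M → ℝ) (ξ : Fin n → M → ℝ) (w : W) : ℝ :=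
  wt ε (π w) * (f (π w) + ∑ j, ξ j (π w) * ν w j)

theorem Df.dc (f : Df D G γ δ R O) (H : Mm D m P κ R1 R2 ε Z π ν α β η c l) {a : M → ℝ}
    {ξ : Fin n → M → ℝ} (ha : Continuous a) (hξ : CC ∞ ξ) {p : ℝ → ℝ} (hp : ContDiff ℝ ∞ p)
    (p3 : ∀ s, 3 ≤ s → p s = 0) :
    IntegrableOn (fun w => p 0 * qq ε π ν a ξ w) {w | G (π w) = 0} α ∧
    (∀ᶠ t in 𝓝[>] 0, Integrable (fun w => p (G (π w) / t) * qq ε π ν a ξ w) α) ∧
    Tendsto (fun t => ∫ w, p (G (π w) / t) * qq ε π ν a ξ w ∂α) (𝓝[>] 0)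
      (𝓝 (∫ w in {w | G (π w) = 0}, p 0 * qq ε π ν a ξ w ∂α)) := by
  haveI := H.fα
  have h0 : CC 0 ξ := hξ.of_le (by simp)
  obtain ⟨C, k⟩ := (isCompact_px M R).exists_bound_of_continuousOn
    ((cont_wt ε).mul (ha.abs.add (D.met.cont_covNorm h0))).continuousOn
  refine P366TR.dc α (g := fun w => G (π w)) (Q := qq ε π ν a ξ)
    (f.sG.cont.measurable.comp H.mπ) (fun w => f.nn _ (H.dom w))
    (((cont_wt ε).measurable.comp H.mπ).mul ((ha.measurable.comp H.mπ).add (H.m1 ξ h0))) f.δ0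
    ⟨C, fun w hw => le_trans ?_ ((le_abs_self _).trans (k (π w) (le_of_not_ge fun h =>
      (f.far _ h).not_ge (hw.trans f.δ1))))⟩ hp.continuous p3
  rw [qq, abs_mul, abs_of_pos (wt_pos ε _)]
  exact mul_le_mul_of_nonneg_left ((abs_add_le _ _).trans (add_le_add le_rfl
    (P366MM.cs D.met _ _ _ (H.unit w).le))) (wt_pos ε _).le

end Vale.Agent.P366TR
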