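import Vale.Agent.P366TR.Kit

/-!
# P366TR: the multiplier has no mass on the boundary, and its trace is normal
-/

set_option linter.all false

open MeasureTheory Filter Topology Set
open scoped ContDiff
open Vale.Agent.P366 Vale.Agent.P366M Vale.Agent.P366K Vale.Agent.P366K3
open Vale.Agent.P366MM (sq_smul)

noncomputable section

namespace Vale.Agent.P366TR

variable {n : ℕ} {M : Type} [Mfe n M] {D : Exterior n M} {G γ : M → ℝ} {δ R : ℝ} {O : Set M}
  {x : M} {m κ R1 R2 ε c l : ℝ} {P : Fin n → ℝ} {Z : Fin n → M → ℝ} {W : Type} [MeasurableSpace W]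
  {π : W → M} {ν : W → Fin n → ℝ} {α β : Measure W} {η : Measure M}

theorem Df.z (f : Df D G γ δ R O) {t : ℝ} (ht : t ∈ Ioc 0 (δ / 3)) (h : R ≤ ‖px x‖) : 3 ≤ G x / t :=
  (le_div_iff₀ ht.1).2 (by linarith [f.far x h, f.δ1, ht.2])

theorem Df.sc (f : Df D G γ δ R O) {p : ℝ → ℝ} (hp : ContDiff ℝ ∞ p) (t : ℝ) :
    Smooth fun x => p (G x / t) := hp.compM (CD.div_const f.sG t)

theorem e1 (hC : C.CONF) (hR : REP) (E : Eqc D m P κ) (H : Mm D m P κ R1 R2 ε Z π ν α β η c l)
    (f : Df D G γ δ R O) {t : ℝ} (ht : t ∈ Ioc 0 (δ / 3))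
    (iX : Integrable (fun w => a0 (G (π w) / t) * qq ε π ν (ip D.g G G) (fun _ _ => 0) w) α)
    (iP : Integrable (fun w => pm a0 (G (π w) / t) * qq ε π ν (lap D.g G)
      (fun j x => -∑ a, D.K x j a * gr D.g G a x) w) α) :
    ∫ w, a0 (G (π w) / t) * qq ε π ν (ip D.g G G) (fun _ _ => 0) w ∂α =
      t * (t * ∫ w, pm (pm a0) (G (π w) / t) * 1 ∂β - ∫ w, pm a0 (G (π w) / t) * qq ε π ν
        (lap D.g G) (fun j x => -∑ a, D.K x j a * gr D.g G a x) w ∂α -
          pm a0 0 * ∫ x, gn D.g D.F x ∂η) := by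
  have s1 := pm_sm sm0
  have d1 : ∀ s, HasDerivAt (fun r => t * pm (pm a0) (r / t)) (pm a0 (s / t)) s := fun s => by
    have := (der_sc s1.continuous t s).const_mul t
    rwa [mul_inv_cancel_left₀ ht.1.ne'] at this
  have d2 := fun x => pd_comp (d1 (G x)) (f.sG.diff x)
  have b := id1 hC hR E H (u := fun x => t * pm (pm a0) (G x / t))
    (CD.mul cd_const (f.sc (pm_sm s1) t)) (R := R) fun x h => by
      rw [pm_zero (pm_zero z0) _ (f.z ht h), mul_zero]
  rw [integral_congr_ae (g := fun w => t⁻¹ * (a0 (G (π w) / t) * qq ε π ν (ip D.g G G)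
      (fun _ _ => 0) w) + pm a0 (G (π w) / t) * qq ε π ν (lap D.g G)
        (fun j x => -∑ a, D.K x j a * gr D.g G a x) w) (.of_forall fun w => by
      have := D.met.lap_comp (φ := fun r => t * pm (pm a0) (r / t)) (f.sG.c2 (π w))
        ((contDiff_const.mul ((pm_sm s1).comp (contDiff_id.div_const t))).contDiffAt.of_le
          two_le_oo)
      rw [show deriv (fun r => t * pm (pm a0) (r / t)) = _ from funext fun s => (d1 s).deriv,
        (der_sc sm0.continuous t _).deriv] at this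
      simp only [this, qq, gr, d2, mul_left_comm _ (pm a0 _), mul_assoc (pm a0 _), ← Finset.mul_sum,
        neg_mul, Finset.sum_neg_distrib, zero_mul, Finset.sum_const_zero]
      ring), integral_add (iX.const_mul _) iP, integral_const_mul,
    integral_congr_ae (g := fun x => pm a0 0 * gn D.g D.F x) (H.sη.mono fun x hx => by
      simp only [d2, f.eq x (f.bd x hx), hx, zero_div, pd_congr (f.ev (f.bd x hx)),
        ← P366MM.dot_nrm, Finset.mul_sum]
      exact Finset.sum_congr rfl fun _ _ => by ring), integral_const_mul, integral_const_mul] at b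
  simp only [mul_one, ← b]
  field_simp [ht.1.ne']
  ring

theorem e2 (hR : REP) (E : Eqc D m P κ) (H : Mm D m P κ R1 R2 ε Z π ν α β η c l)
    (f : Df D G γ δ R O) {t : ℝ} (ht : t ∈ Ioc 0 (δ / 3))
    (iY : Integrable (fun w => a0 (G (π w) / t) * qq ε π ν (fun _ => 0)
      (fun j x => γ x * pd j G x) w) α)
    (iQ : Integrable (fun w => pm a0 (G (π w) / t) * qq ε π ν (fun x => -(γ x *
      (dmu D.g D.K (fun _ _ _ => 0) D.g x / (n - 1)))) (fun j => pd j γ) w) α) :
    ∫ w, a0 (G (π w) / t) * qq ε π ν (fun _ => 0) (fun j x => γ x * pd j G x) w ∂α =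
      t * (-∫ w, pm a0 (G (π w) / t) * qq ε π ν (fun x => -(γ x *
        (dmu D.g D.K (fun _ _ _ => 0) D.g x / (n - 1)))) (fun j => pd j γ) w ∂α -
          pm a0 0 * ∫ x, gn D.g D.F x ∂η) := by
  have s := f.sc (pm_sm sm0) t
  have b := id2 hR E H (φ := fun x => pm a0 (G x / t) * γ x) (CD.mul s f.sγ) (R := R) fun x h => by
    rw [pm_zero z0 _ (f.z ht h), zero_mul]
  rw [integral_congr_ae (g := fun w => t⁻¹ * (a0 (G (π w) / t) * qq ε π ν (fun _ => 0)
      (fun j x => γ x * pd j G x) w) + pm a0 (G (π w) / t) * qq ε π ν (fun x => -(γ x *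
        (dmu D.g D.K (fun _ _ _ => 0) D.g x / (n - 1)))) (fun j => pd j γ) w) (.of_forall fun w => by
      simp only [qq, pd_mul (s.diff _) (f.sγ.diff _), add_mul, Finset.sum_add_distrib,
        pd_comp (der_sc sm0.continuous t _) (f.sG.diff _), mul_assoc, mul_left_comm _ (γ _),
        ← Finset.mul_sum]
      ring), integral_add (iY.const_mul _) iQ, integral_const_mul,
    integral_congr_ae (g := fun x => pm a0 0 * gn D.g D.F x) (H.sη.mono fun x hx => by
      have := (f.eq x (f.bd x hx)).trans hx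
      simp only [this, zero_div, (f.sm x (by simp [this, f.δ0.le])).2.2,
        gn_congr (f.ev (f.bd x hx))]), integral_const_mul] at b
  field_simp [ht.1.ne'] at b ⊢
  linarith

theorem trc (hC : C.CONF) (hR : REP) : P366K2.TRC := by
  intro n M _ W _ D m P κ R1 R2 ε Z π ν α β η c l E H
  obtain ⟨G, γ, δ, R, O, f⟩ := exists_df D
  haveI := H.fβ
  have s1 := pm_sm sm0
  have z1 := pm_zero z0
  have sG := f.sG
  have mG : Measurable fun w => G (π w) := sG.cont.measurable.comp H.mπ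
  have g0 := fun w => f.nn _ (H.dom w)
  have c0 : CC ∞ fun (_ : Fin n) (_ : M) => (0 : ℝ) := by simpa using sG.cc_pd.sub sG.cc_pd
  obtain ⟨i0, iX, lX⟩ := f.dc H (D.met.sm_ip sG sG).cont c0 sm0 z0
  obtain ⟨-, iP, lP⟩ := f.dc H (D.met.sm_lap sG).cont
    (D.smK.lower le_rfl (D.met.sm_gr sG)).neg s1 z1
  obtain ⟨-, iY, -⟩ := f.dc H (continuous_const (y := 0)) (CC.smul f.sγ sG.cc_pd) sm0 z0
  obtain ⟨-, iQ, lQ⟩ := f.dc H (a := fun x => -(γ x * (dmu D.g D.K (fun _ _ _ => 0) D.g x / (n - 1))))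
    (f.sγ.cont.mul ((hR n M D.g D.K _ _ D.F D.met (symK D) sym_zero ⟨D.met.sm, D.met.sy⟩
      D.dom.1).2.1.cont.div_const _)).neg f.sγ.cc_pd s1 z1
  obtain ⟨-, -, lU⟩ := dc β mG g0 (measurable_const (a := (1 : ℝ))) f.δ0 ⟨1, fun _ _ => by simp⟩
    (pm_sm s1).continuous (pm_zero z1)
  have ev := Ioc_mem_nhdsGT (show 0 < δ / 3 by linarith [f.δ0])
  have t0 : Tendsto (fun t : ℝ => t) (𝓝[>] 0) (𝓝 0) := tendsto_nhdsWithin_of_tendsto_nhds tendsto_id
  have k1 := (iX.and iP).and ev |>.mono fun t h => e1 hC hR E H f h.2 h.1.1 h.1.2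
  have k2 := (iY.and iQ).and ev |>.mono fun t h => e2 hR E H f h.2 h.1.1 h.1.2
  have ms : MeasurableSet {w | G (π w) = 0} := mG (measurableSet_singleton 0)
  have pos : ∀ w, G (π w) = 0 → 0 < a0 0 * qq ε π ν (ip D.g G G) (fun _ _ => 0) w := fun w h => by
    have := f.δ0.trans_le (f.sm (π w) (by simp [h, f.δ0.le])).2.1
    simpa [one0, qq] using mul_pos (wt_pos ε (π w)) this
  have nul : α {w | G (π w) = 0} = 0 := by
    have := tendsto_nhds_unique (lX.congr' k1) (t0.mul (((t0.mul lU).sub lP).sub_const _))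
    rw [zero_mul, setIntegral_eq_zero_iff_of_nonneg_ae
      ((ae_restrict_mem ms).mono fun w h => (pos w h).le) i0] at this
    exact Measure.restrict_eq_zero.1 (ae_eq_bot.1 (eventually_false_iff_eq_bot.1
      ((this.and (ae_restrict_mem ms)).mono fun w h => (pos w h.2).ne' h.1)))
  refine ⟨measure_mono_null (fun w h => (f.eq _ (f.bd _ h)).trans h) nul,
    fun x hx => ⟨O, f.op, f.bd x hx, ⟨R, f.ob⟩, ?_⟩⟩
  rw [setIntegral_measure_zero _ nul] at lP lQ
  have lim := (((t0.mul lU).sub lP).add lQ).const_mul δ⁻¹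
  simp only [zero_mul, sub_zero, add_zero, mul_zero] at lim
  have mA : ∀ t : ℝ, MeasurableSet (π ⁻¹' (O ∩ {z | D.F z ∈ Icc t (2 * t)})) := fun t =>
    H.mπ (f.op.measurableSet.inter (D.dom.1.cont.measurable measurableSet_Icc))
  have nn : ∀ t ∈ Ioc 0 (δ / 3), ∀ w ∈ π ⁻¹' (O ∩ {z | D.F z ∈ Icc t (2 * t)}),
      G (π w) ≤ 2 * t ∧ 0 ≤ wt ε (π w) * (1 - gp D.g (nrm D.g D.F) (π w) (ν w)) := fun t ht w h =>
    have a : G (π w) ≤ 2 * t := (f.eq _ h.1).trans_le h.2.2
    ⟨a, mul_nonneg (wt_pos ε _).le (f.key (g0 w) (by linarith [ht.1, ht.2]) (H.unit w)).1⟩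
  refine squeeze_zero' (mem_of_superset ev fun t ht => mul_nonneg (inv_nonneg.2 ht.1.le)
    (setIntegral_nonneg (mA t) fun w h => (nn t ht w h).2)) ?_ lim
  filter_upwards [ev, k1, k2, iX, iY] with t ht k1 k2 iX iY
  have b : ∫ w in π ⁻¹' (O ∩ {z | D.F z ∈ Icc t (2 * t)}),
      wt ε (π w) * (1 - gp D.g (nrm D.g D.F) (π w) (ν w)) ∂α ≤
      ∫ w, δ⁻¹ * (a0 (G (π w) / t) * qq ε π ν (ip D.g G G) (fun _ _ => 0) w -
        a0 (G (π w) / t) * qq ε π ν (fun _ => 0) (fun j x => γ x * pd j G x) w) ∂α := by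
    rw [← integral_indicator (mA t)]
    refine integral_mono_of_nonneg (.of_forall fun w => indicator_nonneg (nn t ht · · |>.2) w)
      ((iX.sub iY).const_mul δ⁻¹) (.of_forall fun w => ?_)
    have p := wt_pos ε (π w)
    have δ0 := f.δ0
    rcases le_total 3 (G (π w) / t) with h | h
    · rw [indicator_of_notMem fun a => by
        linarith [(le_div_iff₀ ht.1).1 h, (nn t ht w a).1, ht.1]]
      simp [z0 _ h]
    obtain ⟨a1, a2, a3⟩ := f.key (g0 w) (by linarith [(div_le_iff₀ ht.1).1 h, ht.2]) (H.unit w)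
    have a4 : ∀ s : ℝ, s * qq ε π ν (ip D.g G G) (fun _ _ => 0) w -
        s * qq ε π ν (fun _ => 0) (fun j x => γ x * pd j G x) w = s * (ip D.g G G (π w) *
          (wt ε (π w) * (1 - gp D.g (nrm D.g D.F) (π w) (ν w)))) := fun s => by
      simp only [qq, zero_mul, Finset.sum_const_zero, add_zero, zero_add]
      linear_combination (s * wt ε (π w)) * a3
    simp only [Pi.sub_apply, a4]
    refine indicator_apply_le' (fun a => ?_) fun _ => ?_
    · rw [one0 ((div_le_iff₀ ht.1).2 (nn t ht w a).1), one_mul, le_inv_mul_iff₀ δ0]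
      exact mul_le_mul_of_nonneg_right a2 (mul_nonneg p.le a1)
    · exact mul_nonneg (inv_nonneg.2 δ0.le) (mul_nonneg (Real.smoothTransition.nonneg _)
        (mul_nonneg (δ0.le.trans a2) (mul_nonneg p.le a1)))
  rw [integral_const_mul, integral_sub iX iY, k1, k2] at b
  refine (mul_le_mul_of_nonneg_left b (inv_nonneg.2 ht.1.le)).trans_eq ?_
  field_simp [ht.1.ne']
  ring

end Vale.Agent.P366TR
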